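import Vale.Agent.P011.E6X.Trip
import Vale.Agent.P011.E6X.H370.T
import Vale.Agent.P011.E6X.H69.TyAt
import Vale.Agent.P011.E6X.Frame
import Vale.Agent.P011.E6X.Orth
import Vale.Agent.P011.E6.Reach
import Vale.Agent.P011.E6O.H370.Tm

/-!
Block E6X: the points which are moved to the standard point by the finite residual.
-/

open NumberField

namespace Vale.Agent.P011.E6X.H493

open Vale.Agent.P011.E6O
open Vale.Agent.P011.MPQ Vale.Agent.P011.D4 Vale.Agent.P011.D4.Oct Vale.Agent.P011.E6 Alb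
open scoped ComplexConjugate

section gen

variable {k E : Type} [Field k] [Field E] [Algebra k E]
  {ρ σ : E ≃ₐ[k] E} {lam : Eˣ} {g : Fin 3 → Eˣ} {al s : E} {a b c : kˣ}

variable (ρ σ lam g al) in
/-- An element of the residual moves the space to a standard point. -/
def Good (B : Submodule E (AlbL E a b c)) : Prop :=
  ∃ n ∈ Res ρ σ lam g a b c, ∃ w : Oct a b c, Perp w ∧
    B.map (n : AlbL E a b c →ₗ[E] AlbL E a b c) = Pw al w

theorem map_mul' {n m : AlbL E a b c ≃ₗ[E] AlbL E a b c} (B : Submodule E (AlbL E a b c)) :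
    B.map ((n * m : AlbL E a b c ≃ₗ[E] AlbL E a b c) : AlbL E a b c →ₗ[E] AlbL E a b c) =
      (B.map (m : AlbL E a b c →ₗ[E] AlbL E a b c)).map
        (n : AlbL E a b c →ₗ[E] AlbL E a b c) := by
  rw [← Submodule.map_comp]
  rfl

theorem good_of_map {n : AlbL E a b c ≃ₗ[E] AlbL E a b c} (hn : n ∈ Res ρ σ lam g a b c)
    {B : Submodule E (AlbL E a b c)}
    (h : Good ρ σ lam g al (B.map (n : AlbL E a b c →ₗ[E] AlbL E a b c))) :
    Good ρ σ lam g al B := by
  obtain ⟨m, hm, w, hw, h1⟩ := h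
  exact ⟨m * n, mul_mem hm hn, w, hw, by rw [map_mul', h1]⟩

theorem res_le : Res ρ σ lam g a b c ≤ GO ρ σ lam g a b c := by
  rintro _ ⟨x, -, rfl⟩
  exact x.2

theorem map_inv' {n : AlbL E a b c ≃ₗ[E] AlbL E a b c} (B : Submodule E (AlbL E a b c)) :
    (B.map ((n⁻¹ : AlbL E a b c ≃ₗ[E] AlbL E a b c) : AlbL E a b c →ₗ[E] AlbL E a b c)).map
      (n : AlbL E a b c →ₗ[E] AlbL E a b c) = B := by
  rw [← map_mul', mul_inv_cancel]
  ext y
  constructor
  · rintro ⟨x, hx, rfl⟩
    exact hx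
  · intro hy
    exact ⟨y, hy, rfl⟩

/-- A compatible embedding lies over a real embedding of the ground field. -/
theorem exists_tau (H : Hyp ρ σ lam g al s a b c) {w : E →+* ℂ}
    (hw : SC σ w) : ∃ τ : k →+* ℝ, (∀ t, vk w t = τ t) ∧ τ a < 0 := by
  have h1 : ∀ t : k, ((w (algebraMap k E t)).re : ℂ) = w (algebraMap k E t) := by
    intro t
    have h2 := hw (algebraMap k E t)
    rw [AlgEquiv.commutes] at h2
    exact Complex.conj_eq_iff_re.1 h2.symm
  let τ : k →+* ℝ :=
    { toFun := fun t => (w (algebraMap k E t)).re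
      map_one' := by simp
      map_zero' := by simp
      map_add' := fun x y => by simp
      map_mul' := fun x y => by
        have h3 : (((w (algebraMap k E (x * y))).re : ℝ) : ℂ) =
            (((w (algebraMap k E x)).re * (w (algebraMap k E y)).re : ℝ) : ℂ) := by
          rw [h1, Complex.ofReal_mul, h1, h1, map_mul, map_mul]
        exact Complex.ofReal_inj.1 h3 }
  have hτ : ∀ t, vk w t = τ t := fun t => rfl
  refine ⟨τ, hτ, ?_⟩
  have h4 : (starRingEnd ℂ) (w al) = -w al := by rw [← hw, H.σal, map_neg]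
  have h5 : (w al).re = 0 := by
    have := congrArg Complex.re h4
    rw [Complex.conj_re, Complex.neg_re] at this
    linarith
  have h6 : w al ^ 2 = ((τ a : ℝ) : ℂ) := by
    rw [← map_pow, H.al2]
    exact (h1 a).symm
  have h7 : τ a = -(w al).im ^ 2 := by
    have := congrArg Complex.re h6
    rw [sq, Complex.mul_re, h5, Complex.ofReal_re] at this
    linarith
  have h8 : τ a ≠ 0 := (map_ne_zero τ).2 a.ne_zero
  rw [h7] at h8 ⊢
  have h9 : (w al).im ≠ 0 := by
    intro h
    rw [h] at h8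
    simp at h8
  have : 0 < (w al).im ^ 2 := by positivity
  linarith

theorem vk_mul (H : Hyp ρ σ lam g al s a b c) {w : E →+* ℂ} (hw : SC σ w) (x y : k) :
    vk w (x * y) = vk w x * vk w y := by
  obtain ⟨τ, h1, -⟩ := exists_tau H hw
  rw [h1, h1, h1, map_mul]

theorem vk_neg (w : E →+* ℂ) (x : k) : vk w (-x) = -vk w x := by
  simp [vk]

theorem vk_ne (H : Hyp ρ σ lam g al s a b c) {w : E →+* ℂ} (hw : SC σ w) {x : k} (hx : x ≠ 0) :
    vk w x ≠ 0 := by
  obtain ⟨τ, h1, -⟩ := exists_tau H hw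
  rw [h1]
  exact (map_ne_zero τ).2 hx

variable [NumberField k] [NumberField E]

/-- Transport of `Good` along a change of coordinates. -/
theorem good_trip (H : Hyp ρ σ lam g al s a b c) {b' c' : kˣ} {j l : Oct a b c}
    (ht : Trip a b' c' gi j l) {B : Submodule E (AlbL E a b c)}
    (h : Good ρ σ lam g al (B.map ((tripA E ht).symm : AlbL E a b c →ₗ[E] AlbL E a b' c'))) :
    Good ρ σ lam g al B := by
  obtain ⟨m, hm, w, hw, h1⟩ := h
  have h2 := (trip_Res H ht (Ψ := tripA E ht) (tripA_apply ht) (φ := m)).2.1 hm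
  refine ⟨_, h2, _, perp_trip ht hw, ?_⟩
  rw [← Pw_trip ht w, ← h1, ← Submodule.map_comp, ← Submodule.map_comp]
  rfl

theorem yI_mem (r : Fin 3 → E) : (Sl.yI al 1 0 r 0 : AlbL E a b c) ∈ Pw al (gl : Oct a b c) := by
  refine ⟨r, ?_⟩
  rw [ep_mul_gl]
  have h1 : ∀ t : E, mkq (up E a) (up E b) al t 0 (1 * 0) 0 = t • ep al := by
    intro t
    apply QuaternionAlgebra.ext
    · rw [QuaternionAlgebra.re_smul]; simp only [mkq, ep, smul_eq_mul]; ring
    · rw [QuaternionAlgebra.imI_smul]; simp only [mkq, ep, smul_eq_mul]; ring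
    · rw [QuaternionAlgebra.imJ_smul]; simp only [mkq, ep, smul_eq_mul]; ring
    · rw [QuaternionAlgebra.imK_smul]; simp only [mkq, ep, smul_eq_mul]; ring
  have h2 : mkq (up E a) (up E b) al 0 0 0 (0 * 0) = 0 := by
    apply QuaternionAlgebra.ext <;> simp [mkq]
  apply Alb.ext
  · rfl
  · rfl
  · rfl
  all_goals
    apply Oct.ext
    · simp only [Sl.yI, Pi.zero_apply, h2, fst_smul, smul_zero]
    · simp only [Sl.yI, Pi.zero_apply, h1, snd_smul]

/-- The elements of the standard point. -/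
theorem eq_yI_of_mem {y : AlbL E a b c} (hy : y ∈ Pw al (gl : Oct a b c)) :
    ∃ r : Fin 3 → E, y = Sl.yI al 1 0 r 0 := by
  obtain ⟨r, rfl⟩ := hy
  refine ⟨r, ?_⟩
  rw [ep_mul_gl]
  have h1 : ∀ t : E, mkq (up E a) (up E b) al t 0 (1 * 0) 0 = t • ep al := by
    intro t
    apply QuaternionAlgebra.ext
    · rw [QuaternionAlgebra.re_smul]; simp only [mkq, ep, smul_eq_mul]; ring
    · rw [QuaternionAlgebra.imI_smul]; simp only [mkq, ep, smul_eq_mul]; ring
    · rw [QuaternionAlgebra.imJ_smul]; simp only [mkq, ep, smul_eq_mul]; ring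
    · rw [QuaternionAlgebra.imK_smul]; simp only [mkq, ep, smul_eq_mul]; ring
  have h2 : mkq (up E a) (up E b) al 0 0 0 (0 * 0) = 0 := by
    apply QuaternionAlgebra.ext <;> simp [mkq]
  apply Alb.ext
  · rfl
  · rfl
  · rfl
  all_goals
    apply Oct.ext
    · simp only [Sl.yI, Pi.zero_apply, h2, fst_smul, smul_zero]
    · simp only [Sl.yI, Pi.zero_apply, h1, snd_smul]

theorem yI_add (f1 f2 : E) (u s r : Fin 3 → E) :
    (Sl.yI al f1 f2 u s : AlbL E a b c) + Sl.yI al 1 0 r 0 = Sl.yI al f1 f2 (u + r) s := by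
  have h1 : ∀ p q : E, mkq (up E a) (up E b) al 0 0 0 p + mkq (up E a) (up E b) al 0 0 0 (0 * q) =
      mkq (up E a) (up E b) al 0 0 0 p := by
    intro p q
    apply QuaternionAlgebra.ext
    · rw [QuaternionAlgebra.re_add]; simp only [mkq]; ring
    · rw [QuaternionAlgebra.imI_add]; simp only [mkq]; ring
    · rw [QuaternionAlgebra.imJ_add]; simp only [mkq]; ring
    · rw [QuaternionAlgebra.imK_add]; simp only [mkq]; ring
  have h2 : ∀ p q r : E, mkq (up E a) (up E b) al p 0 q 0 + mkq (up E a) (up E b) al r 0 (1 * 0) 0 =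
      mkq (up E a) (up E b) al (p + r) 0 q 0 := by
    intro p q r
    apply QuaternionAlgebra.ext
    · rw [QuaternionAlgebra.re_add]; simp only [mkq]; ring
    · rw [QuaternionAlgebra.imI_add]; simp only [mkq]; ring
    · rw [QuaternionAlgebra.imJ_add]; simp only [mkq]; ring
    · rw [QuaternionAlgebra.imK_add]; simp only [mkq]; ring
  apply Alb.ext
  · simp [Sl.yI]
  · simp [Sl.yI]
  · simp [Sl.yI]
  · apply Oct.ext
    · exact h1 _ _
    · exact h2 _ _ _
  · apply Oct.ext
    · exact h1 _ _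
    · exact h2 _ _ _
  · apply Oct.ext
    · exact h1 _ _
    · exact h2 _ _ _

/-- The first standard point. -/
theorem isPt_std (H : Hyp ρ σ lam g al s a b c) : IsPt ρ lam (Pw al (gl : Oct a b c)) := by
  have hal' : al ^ 2 = ((up E a : Eˣ) : E) := H.al2
  obtain ⟨e1, e2, e3, e4⟩ := co_ep (b := b) H.al2
  have hne : (⟨0, ep al⟩ : OctL E a b c) ≠ 0 := by
    intro h
    have h1 := congrArg (fun z => ca al z.snd) h
    simp only [e1, snd_zero, ca_zero] at h1
    exact one_ne_zero h1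
  refine ⟨?_, ?_, ?_⟩
  · let f : (Fin 3 → E) →ₗ[E] AlbL E a b c :=
      { toFun := fun r => ⟨0, 0, 0, r 0 • ⟨0, ep al⟩, r 1 • ⟨0, ep al⟩, r 2 • ⟨0, ep al⟩⟩
        map_add' := fun r t => by apply Alb.ext <;> simp [add_smul]
        map_smul' := fun t r => by apply Alb.ext <;> simp [mul_smul] }
    have hf : ∀ r, f r = ⟨0, 0, 0, r 0 • ⟨0, ep al⟩, r 1 • ⟨0, ep al⟩, r 2 • ⟨0, ep al⟩⟩ :=
      fun r => rfl
    have h1 : Pw al (gl : Oct a b c) = LinearMap.range f := by
      ext y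
      constructor
      · rintro ⟨r, rfl⟩
        exact ⟨r, by rw [ep_mul_gl, hf]⟩
      · rintro ⟨r, rfl⟩
        exact ⟨r, by rw [ep_mul_gl, hf]⟩
    rw [h1, LinearMap.finrank_range_of_inj, Module.finrank_fin_fun]
    rw [← LinearMap.ker_eq_bot, LinearMap.ker_eq_bot']
    intro r hr
    rw [hf] at hr
    have k1 := congrArg Alb.x1 hr
    have k2 := congrArg Alb.x2 hr
    have k3 := congrArg Alb.x3 hr
    funext i
    fin_cases i
    · exact (smul_eq_zero.1 k1).resolve_right hne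
    · exact (smul_eq_zero.1 k2).resolve_right hne
    · exact (smul_eq_zero.1 k3).resolve_right hne
  · rintro _ ⟨r, rfl⟩
    have h0 : qmap ρ (ep al : Qt (up E a) (up E b)) = ep al := by
      apply QuaternionAlgebra.ext
      · change ρ (1 / 2) = 1 / 2
        rw [map_div₀, map_one, map_ofNat]
      · change ρ (1 / (2 * al)) = 1 / (2 * al)
        rw [map_div₀, map_one, map_mul, map_ofNat, H.ρal]
      · exact map_zero ρ
      · exact map_zero ρ
    have h1 : omap ρ (⟨0, ep al⟩ : OctL E a b c) = ⟨0, ep al⟩ := by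
      apply Oct.ext
      · exact qmap_zero ρ
      · exact h0
    refine ⟨![(lam : E) * ρ (r 2), ρ (r 0), ρ (r 1)], ?_⟩
    rw [ep_mul_gl]
    apply Alb.ext
    · simp [ph]
    · simp [ph]
    · simp [ph]
    · simp only [ph, om_smul, h1, smul_smul]; rfl
    · simp only [ph, om_smul, h1]; rfl
    · simp only [ph, om_smul, h1]; rfl
  · rintro _ ⟨r, rfl⟩
    rw [ep_mul_gl]
    have h0 : nrd (0 : Qt (up E a) (up E b)) = 0 := by simp [nrd]
    have h1 : nrd (ep al : Qt (up E a) (up E b)) = 0 := by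
      rw [nrd_co hal', e2, e3]; ring
    have h2 : star (ep al) * (ep al : Qt (up E a) (up E b)) = 0 := by
      apply ext_co two_ne_zero hal' <;>
        simp only [ca_mul hal', cb_mul hal', cg_mul hal', cd_mul hal', e1, e2, e3, e4, ca_star,
          cb_star, cg_star, cd_star, ca_zero, cb_zero, cg_zero, cd_zero] <;> ring
    have h3 : Oct.norm (⟨0, ep al⟩ : OctL E a b c) = 0 := by
      rw [Oct.norm, h0, h1]; ring
    have h4 : (⟨0, ep al⟩ : OctL E a b c) * ⟨0, ep al⟩ = 0 := by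
      apply Oct.ext
      · rw [fst_mul]
        simp only [h2, mul_zero, smul_zero, add_zero, fst_zero]
      · rw [snd_mul]
        simp only [mul_zero, star_zero, add_zero, snd_zero]
    apply Alb.ext
    · simp only [adj, Oct.norm_smul, h3, d1_zero]; ring
    · simp only [adj, Oct.norm_smul, h3, d2_zero]; ring
    · simp only [adj, Oct.norm_smul, h3, d3_zero]; ring
    · simp only [adj, smul_mul_oct, mul_smul_oct, h4, smul_zero, star_zero, zero_smul, sub_zero,
        x1_zero]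
    · simp only [adj, smul_mul_oct, mul_smul_oct, h4, smul_zero, star_zero, zero_smul, sub_zero,
        x2_zero]
    · simp only [adj, smul_mul_oct, mul_smul_oct, h4, smul_zero, star_zero, zero_smul, sub_zero,
        x3_zero]

/-- A point of a line `yI` with a known type is good. -/
theorem good_fr (H : Hyp ρ σ lam g al s a b c) {f1 f2 : E} (h1 : ρ f1 = f1) (h2 : ρ f2 = f2)
    (h0 : f1 ≠ 0 ∨ f2 ≠ 0) {A : Submodule E (AlbL E a b c)} (hA : IsPt ρ lam A)
    (hAy : ∀ y ∈ A, ∃ u s, y = Sl.yI al f1 f2 u s) {f : k} (hf : f ≠ 0) (hT : Ty σ g f A)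
    (hs : ∀ w, SC σ w → (vk w (b : k) < 0 → vk w (c : k) < 0 → 0 < vk w f) ∧
      (0 < vk w (b : k) ∨ 0 < vk w (c : k) → vk w (c : k) < 0 ∨ vk w f < 0)) :
    Good ρ σ lam g al A := by
  obtain ⟨b', j', ht, hle⟩ := Sl.frame H h1 h2 h0 hAy
  apply good_trip H ht
  refine E6X.T (Hyp.trip H ht) hf ?_ (isPt_trip ht hA) hle
    (fun w hw => tyAt_trip ht (hT w hw))
  intro w hw hb'
  obtain ⟨τ, hτ, ha⟩ := exists_tau H hw
  have hc0 : vk w (c : k) ≠ 0 := vk_ne H hw c.ne_zero
  have hb0 : vk w (b : k) ≠ 0 := vk_ne H hw b.ne_zero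
  obtain ⟨hs1, hs2⟩ := hs w hw
  rw [vk_neg, vk_mul H hw, neg_pos]
  rcases lt_or_gt_of_ne hc0 with hc | hc
  · -- `c` is negative
    have hd : Dfn τ a b c := Dfn.of_trip ht ⟨ha, by rwa [← hτ], by rwa [← hτ]⟩
    have hb : vk w (b : k) < 0 := by rw [hτ]; exact hd.2.1
    exact mul_neg_of_neg_of_pos hc (hs1 hb hc)
  · rcases hs2 (Or.inr hc) with h3 | h3
    · exact absurd h3 (not_lt.2 hc.le)
    · exact mul_neg_of_pos_of_neg hc h3

end gen

end Vale.Agent.P011.E6X.H493
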