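import Vale.Agent.P011.E6X.XDefs
import Vale.Agent.P011.E6O.H370.Tm

/-!
Block E6X: the image of the first standard point is near the opposite one.
-/

open NumberField

namespace Vale.Agent.P011.E6X.H493

open Vale.Agent.P011.E6O
open Vale.Agent.P011.MPQ Vale.Agent.P011.D4 Vale.Agent.P011.D4.Oct Vale.Agent.P011.E6 Alb
open Vale.Agent.P011.E6O.Sl (XX YY ZZ)

variable {k E : Type} [Field k] [Field E] [Algebra k E] {al : E} {a b c : kˣ}

theorem ca_qi (q : Qt (up E a) (up E b)) : ca al (qi q) = cb al q := by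
  simp only [ca, cb, qi]
  ring

theorem cb_qi (q : Qt (up E a) (up E b)) : cb al (qi q) = ca al q := by
  simp only [ca, cb, qi]
  ring

theorem cg_qi (q : Qt (up E a) (up E b)) : cg al (qi q) = cd al q := by
  simp only [cg, cd, qi]
  ring

theorem cd_qi (q : Qt (up E a) (up E b)) : cd al (qi q) = cg al q := by
  simp only [cg, cd, qi]
  ring

theorem XX_ai (y : AlbL E a b c) (i j : Fin 3) :
    XX al (ai E a b c y) i j = XX al y j i := by
  fin_cases i <;> fin_cases j <;> simp [XX, ai_apply, oi_apply, ca_qi, cb_qi]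

theorem YY_ai (y : AlbL E a b c) (i j : Fin 3) :
    YY al (ai E a b c y) i j =
      (![-(up E c : E)⁻¹, -(up E b : E)⁻¹, (up E b : E) * up E c] : Fin 3 → E) i *
        ZZ al y j i := by
  have hb : (up E b : E) ≠ 0 := (up E b).ne_zero
  have hc : (up E c : E) ≠ 0 := (up E c).ne_zero
  fin_cases i <;> fin_cases j <;>
    simp [YY, ZZ, ai_apply, oi_apply, ca_qi, cg_qi, cd_qi, hb, hc]

theorem ZZ_ai (y : AlbL E a b c) (i j : Fin 3) :
    ZZ al (ai E a b c y) i j =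
      (![-(up E c : E), -(up E b : E), ((up E b : E) * up E c)⁻¹] : Fin 3 → E) j *
        YY al y j i := by
  have hb : (up E b : E) ≠ 0 := (up E b).ne_zero
  have hc : (up E c : E) ≠ 0 := (up E c).ne_zero
  fin_cases i <;> fin_cases j <;>
    simp [YY, ZZ, ai_apply, oi_apply, cb_qi, cg_qi, cd_qi]
  all_goals field_simp

theorem nw_nonneg (w : E →+* ℂ) (y : AlbL E a b c) : 0 ≤ nw w al y := by
  unfold nw
  positivity

/-- The automorphism is bounded. -/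
theorem nw_ai (w : E →+* ℂ) : ∃ C : ℝ, 0 < C ∧ ∀ y : AlbL E a b c,
    nw w al (ai E a b c y) ≤ C * nw w al y := by
  obtain ⟨κ, hκ⟩ : ∃ κ : Fin 3 → E,
      κ = ![-(up E c : E)⁻¹, -(up E b : E)⁻¹, (up E b : E) * up E c] := ⟨_, rfl⟩
  obtain ⟨κ', hκ'⟩ : ∃ κ' : Fin 3 → E,
      κ' = ![-(up E c : E), -(up E b : E), ((up E b : E) * up E c)⁻¹] := ⟨_, rfl⟩
  have h1 : ∀ i, ‖w (κ i)‖ ≤ ∑ i, ‖w (κ i)‖ := fun i =>
    Finset.single_le_sum (f := fun i => ‖w (κ i)‖) (fun _ _ => norm_nonneg _) (Finset.mem_univ i)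
  have h2 : ∀ i, ‖w (κ' i)‖ ≤ ∑ i, ‖w (κ' i)‖ := fun i =>
    Finset.single_le_sum (f := fun i => ‖w (κ' i)‖) (fun _ _ => norm_nonneg _) (Finset.mem_univ i)
  have h3 : 0 ≤ ∑ i, ‖w (κ i)‖ := Finset.sum_nonneg fun _ _ => norm_nonneg _
  have h4 : 0 ≤ ∑ i, ‖w (κ' i)‖ := Finset.sum_nonneg fun _ _ => norm_nonneg _
  refine ⟨1 + ∑ i, ‖w (κ i)‖ + ∑ i, ‖w (κ' i)‖, by linarith, fun y => ?_⟩
  set C := 1 + ∑ i, ‖w (κ i)‖ + ∑ i, ‖w (κ' i)‖ with hC
  have h5 : nw w al y = ∑ i, ∑ j, (‖w (XX al y j i)‖ + ‖w (YY al y j i)‖ +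
      ‖w (ZZ al y j i)‖) := by
    rw [nw, Finset.sum_comm]
  rw [h5, nw, Finset.mul_sum]
  refine Finset.sum_le_sum fun i _ => ?_
  rw [Finset.mul_sum]
  refine Finset.sum_le_sum fun j _ => ?_
  rw [XX_ai, YY_ai, ZZ_ai, ← hκ, ← hκ', map_mul, map_mul, _root_.norm_mul, _root_.norm_mul]
  have k1 : ‖w (κ i)‖ * ‖w (ZZ al y j i)‖ ≤ C * ‖w (ZZ al y j i)‖ :=
    mul_le_mul_of_nonneg_right (by linarith [h1 i]) (norm_nonneg _)
  have k2 : ‖w (κ' j)‖ * ‖w (YY al y j i)‖ ≤ C * ‖w (YY al y j i)‖ :=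
    mul_le_mul_of_nonneg_right (by linarith [h2 j]) (norm_nonneg _)
  have k3 : ‖w (XX al y j i)‖ ≤ C * ‖w (XX al y j i)‖ :=
    le_mul_of_one_le_left (norm_nonneg _) (by linarith)
  linarith

theorem xm_eq : (xm al : OctL E a b c) = ⟨0, E6O.em al⟩ := by
  apply Oct.ext
  · rfl
  · apply QuaternionAlgebra.ext
    · simp [xm, mkq, E6O.em]
    · simp only [xm, mkq, E6O.em]
      ring
    · simp [xm, mkq, E6O.em]
    · simp [xm, mkq, E6O.em]

theorem ai_pb (i : Fin 3) : ai E a b c (pb (⟨0, ep al⟩ : OctL E a b c) i) = pb (xm al) i := by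
  have h1 : oi (up E a) (up E b) (up E c) (⟨0, ep al⟩ : OctL E a b c) = xm al := by
    rw [xm_eq, oi_apply]
    apply Oct.ext
    · exact qi_zero
    · exact qi_ep
  rw [ai_apply]
  simp only [pb, map_smul, h1]

theorem pb_mem [CharZero E] (i : Fin 3) : pb (⟨0, ep al⟩ : OctL E a b c) i ∈ Pw al (gl : Oct a b c) := by
  refine ⟨fun j => if i = j then 1 else 0, ?_⟩
  rw [H493.ep_mul_gl]
  rfl

theorem NearP.mono {w : E →+* ℂ} {δ δ' : ℝ} (h : δ ≤ δ') {x : OctL E a b c}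
    {P : Submodule E (AlbL E a b c)} (hP : NearP w al δ x P) : NearP w al δ' x P := by
  obtain ⟨p, h1, h2⟩ := hP
  exact ⟨p, h1, fun i => (h2 i).trans h⟩

/-- The image of the standard point. -/
theorem near_P [CharZero E] (w : E →+* ℂ) {δ : ℝ} (hδ : 0 < δ) : ∃ ε : ℝ, 0 < ε ∧
    ∀ h : AlbL E a b c ≃ₗ[E] AlbL E a b c, (∀ x, nw w al (h x - x) ≤ ε * nw w al x) →
      NearP w al δ (xm al) ((Pw al (gl : Oct a b c)).map
        ((ai E a b c * h : AlbL E a b c ≃ₗ[E] AlbL E a b c) :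
          AlbL E a b c →ₗ[E] AlbL E a b c)) := by
  obtain ⟨C, hC, hC'⟩ := nw_ai (al := al) (a := a) (b := b) (c := c) w
  obtain ⟨M, hM⟩ : ∃ M : ℝ, M = ∑ i, nw w al (pb (⟨0, ep al⟩ : OctL E a b c) i) := ⟨_, rfl⟩
  have hM0 : 0 ≤ M := by
    rw [hM]
    exact Finset.sum_nonneg fun _ _ => nw_nonneg _ _
  have hMi : ∀ i, nw w al (pb (⟨0, ep al⟩ : OctL E a b c) i) ≤ M := fun i => by
    rw [hM]
    exact Finset.single_le_sum (f := fun i => nw w al (pb (⟨0, ep al⟩ : OctL E a b c) i))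
      (fun _ _ => nw_nonneg _ _) (Finset.mem_univ i)
  have hp : 0 < C * (M + 1) := by positivity
  refine ⟨δ / (C * (M + 1)), by positivity, fun h hh => ?_⟩
  refine ⟨fun i => ai E a b c (h (pb (⟨0, ep al⟩ : OctL E a b c) i)), fun i => ?_, fun i => ?_⟩
  · exact ⟨_, pb_mem i, rfl⟩
  · rw [← ai_pb, ← map_sub]
    calc nw w al (ai E a b c (h (pb (⟨0, ep al⟩ : OctL E a b c) i) -
          pb (⟨0, ep al⟩ : OctL E a b c) i)) ≤
        C * nw w al (h (pb (⟨0, ep al⟩ : OctL E a b c) i) - pb (⟨0, ep al⟩ : OctL E a b c) i) :=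
          hC' _
      _ ≤ C * (δ / (C * (M + 1)) * nw w al (pb (⟨0, ep al⟩ : OctL E a b c) i)) :=
          mul_le_mul_of_nonneg_left (hh _) hC.le
      _ ≤ C * (δ / (C * (M + 1)) * (M + 1)) := by
          refine mul_le_mul_of_nonneg_left (mul_le_mul_of_nonneg_left ?_ (by positivity)) hC.le
          linarith [hMi i]
      _ = δ := by
          field_simp

end Vale.Agent.P011.E6X.H493
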