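import Vale.Agent.P011.E6X.H493.SlideX
import Vale.Agent.P011.E6X.H493.NearP
import Vale.Agent.P011.E6X.H637.XU
import Vale.Agent.P011.E6X.H408.Pos
import Vale.Agent.P011.E6X.H342.NearA
import Mathlib.NumberTheory.NumberField.Basic

/-!
Block E6X: the elements near the identity are in the finite residual.
-/

open NumberField

namespace Vale.Agent.P011.E6X

open Vale.Agent.P011.E6O
open Vale.Agent.P011.MPQ Vale.Agent.P011.D4 Vale.Agent.P011.D4.Oct Vale.Agent.P011.E6 Alb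

variable {k E : Type} [Field k] [NumberField k] [Field E] [NumberField E] [Algebra k E]
  {ρ σ : E ≃ₐ[k] E} {lam : Eˣ} {g : Fin 3 → Eˣ} {al s : E} {a b c : kˣ}

/-- The nearness at one place. -/
theorem H493.near_w (H : Hyp ρ σ lam g al s a b c) (w : E →+* ℂ) : ∃ ε : ℝ, 0 < ε ∧
    (SC σ w → ∀ h ∈ GO ρ σ lam g a b c, (∀ x, nw w al (h x - x) ≤ ε * nw w al x) →
      ∀ P : Submodule E (AlbL E a b c), P = (Pw al (gl : Oct a b c)).map
        ((ai E a b c * h : AlbL E a b c ≃ₗ[E] AlbL E a b c) :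
          AlbL E a b c →ₗ[E] AlbL E a b c) → IsPt ρ lam P →
      ∀ U : Submodule E (AlbL E a b c), IsPt ρ lam U → U ≤ Iln c (E6O.em al) →
        (∀ y ∈ U, ∀ x ∈ P, her σ g y x = 0) → TyAt σ g w ((b : k) * c) U ∧
        ∀ A : Submodule E (AlbL E a b c), IsPt ρ lam A → (∀ x ∈ P, ∀ y ∈ A, adj (x + y) = 0) →
          (∀ x ∈ opp σ g al U, ∀ y ∈ A, adj (x + y) = 0) → TyAt σ g w (-(b : k)) A) := by
  by_cases hw : SC σ w
  · obtain ⟨ε1, h1, h1'⟩ := E6X.near_A H hw
    obtain ⟨ε2, h2, h2'⟩ := near_U H hw h1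
    obtain ⟨ε3, h3, h3'⟩ := H493.near_P (al := al) (a := a) (b := b) (c := c) w (lt_min h1 h2)
    refine ⟨ε3, h3, fun _ h hh hn P hP hPp U hU hUl horth => ?_⟩
    have h4 := h3' h hn
    rw [← hP] at h4
    obtain ⟨h5, h6⟩ := h2' P U hPp hU hUl horth (H493.NearP.mono (min_le_right _ _) h4)
    exact ⟨h5, fun A hA h7 h8 => h1' P _ A hA (H493.NearP.mono (min_le_left _ _) h4) h6 h7 h8⟩
  · exact ⟨1, one_pos, fun h => absurd h hw⟩

/-- **The elements near the identity carry the first standard point to a standard point**, up to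
an element of the residual. -/
theorem near_slide (H : Hyp ρ σ lam g al s a b c) (hS : Sg σ b c) :
    ∃ ε : ℝ, 0 < ε ∧ ∀ h ∈ GO ρ σ lam g a b c, NearS σ g al ε h →
      ∃ n ∈ Res ρ σ lam g a b c, ∃ w : Oct a b c, Perp w ∧
        (Pw al (gl : Oct a b c)).map ((n * h : AlbL E a b c ≃ₗ[E] AlbL E a b c) :
          AlbL E a b c →ₗ[E] AlbL E a b c) = Pw al w := by
  classical
  choose ε hε hε' using H493.near_w H (ρ := ρ) (σ := σ) (lam := lam) (g := g) (al := al)
    (s := s) (a := a) (b := b) (c := c)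
  obtain ⟨ε0, h0, h0'⟩ : ∃ ε0 : ℝ, 0 < ε0 ∧ ∀ w, ε0 ≤ ε w := by
    rcases isEmpty_or_nonempty (E →+* ℂ) with he | he
    · exact ⟨1, one_pos, fun w => (he.false w).elim⟩
    · refine ⟨Finset.univ.inf' Finset.univ_nonempty ε,
        (Finset.lt_inf'_iff _).2 fun w _ => hε w, fun w => Finset.inf'_le _ (Finset.mem_univ w)⟩
  refine ⟨ε0, h0, fun h hh hn => ?_⟩
  have hai : ai E a b c ∈ Res ρ σ lam g a b c := aut_Res H (autI a b c) (ai_aup (E := E))
  set P := (Pw al (gl : Oct a b c)).map ((ai E a b c * h : AlbL E a b c ≃ₗ[E] AlbL E a b c) :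
    AlbL E a b c →ₗ[E] AlbL E a b c) with hP
  have hGO : ai E a b c * h ∈ GO ρ σ lam g a b c := mul_mem (H493.res_le hai) hh
  have hPp : IsPt ρ lam P := H493.isPt_map hGO (H493.isPt_std H)
  have hTP : Ty σ g (-(c : k)) P := fun w hw => tyAt_map (tyAt_Pw H hw) hGO
  have hσg : ∀ i, σ (g i) = g i := H.σg
  have key := H493.good_of_types H hS hPp hTP (by
    intro U hU hUl horth
    have hU' : ∀ w, SC σ w → ¬ Cp g b c w → TyAt σ g w ((b : k) * c) U ∧
        ∀ A : Submodule E (AlbL E a b c), IsPt ρ lam A → (∀ x ∈ P, ∀ y ∈ A, adj (x + y) = 0) →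
          (∀ x ∈ opp σ g al U, ∀ y ∈ A, adj (x + y) = 0) → TyAt σ g w (-(b : k)) A := by
      intro w hw hc
      refine hε' w hw h hh (fun x => ?_) P hP hPp U hU hUl horth
      refine (hn w hw hc x).trans ?_
      exact mul_le_mul_of_nonneg_right (h0' w) (H493.nw_nonneg _ _)
    constructor
    · intro w hw
      by_cases hc : Cp g b c w
      · refine tyAt_pos H hw
          (fun x hx => her_pos two_ne_zero H.al2 H.σal hw hσg hc hx) hc.2.2 ?_ hU.dim
        rw [H493.vk_mul H hw]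
        exact mul_pos_of_neg_of_neg hc.1 hc.2.1
      · exact (hU' w hw hc).1
    · intro A hA h1 h2 w hw
      by_cases hc : Cp g b c w
      · refine tyAt_pos H hw
          (fun x hx => her_pos two_ne_zero H.al2 H.σal hw hσg hc hx) hc.2.2 ?_ hA.dim
        rw [H493.vk_neg]
        exact neg_pos.2 hc.1
      · exact (hU' w hw hc).2 A hA h1 h2)
  obtain ⟨n, hn', v, hv, h3⟩ := key
  refine ⟨n * ai E a b c, mul_mem hn' hai, v, hv, ?_⟩
  rw [← h3, hP, ← H493.map_mul', mul_assoc]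

end Vale.Agent.P011.E6X
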