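import Vale.Agent.P011.E6X.H493.NearX
import Vale.Agent.P011.E6X.Top

/-!
Block E6X: every subgroup of finite index is open at the real places where the group is not
compact.
-/

open NumberField

namespace Vale.Agent.P011.E6X

open Vale.Agent.P011.E6O
open Vale.Agent.P011.MPQ Vale.Agent.P011.D4 Vale.Agent.P011.D4.Oct Vale.Agent.P011.E6

variable {k E : Type} [Field k] [NumberField k] [Field E] [NumberField E] [Algebra k E]
  {ρ σ : E ≃ₐ[k] E} {lam : Eˣ} {g : Fin 3 → Eˣ} {al s : E} {a b c : kˣ}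

/-- **The elements near the identity are in the finite residual.** -/
theorem near_res (H : Hyp ρ σ lam g al s a b c) (hS : Sg σ b c) :
    ∃ ε : ℝ, 0 < ε ∧ ∀ h ∈ GO ρ σ lam g a b c, NearS σ g al ε h →
      h ∈ Res ρ σ lam g a b c := by
  obtain ⟨ε, h0, h1⟩ := near_slide H hS
  exact ⟨ε, h0, fun h hh hn => mem_res_of_slide H hh (h1 h hh hn)⟩

/-- **Every subgroup of finite index is open at the real places where the group is not
compact.** -/
theorem open_of_near (H : Hyp ρ σ lam g al s a b c) (hS : Sg σ b c)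
    (N : Subgroup (GO ρ σ lam g a b c)) (hN : N.index ≠ 0) :
    ∃ ε : ℝ, 0 < ε ∧ ∀ h : GO ρ σ lam g a b c, NearS σ g al ε h.1 → h ∈ N := by
  obtain ⟨ε, h0, h1⟩ := near_res H hS
  exact ⟨ε, h0, fun h hn => mem_of_mem_res hN (h1 h.1 h.2 hn)⟩

end Vale.Agent.P011.E6X
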