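import Vale.Agent.P011.E6X.H493.GoodX

/-!
Block E6X: the elements near the identity are in the finite residual.
-/

open NumberField

namespace Vale.Agent.P011.E6X.H493

open Vale.Agent.P011.E6O
open Vale.Agent.P011.MPQ Vale.Agent.P011.D4 Vale.Agent.P011.D4.Oct Vale.Agent.P011.E6 Alb

variable {k E : Type} [Field k] [NumberField k] [Field E] [NumberField E] [Algebra k E]
  {ρ σ : E ≃ₐ[k] E} {lam : Eˣ} {g : Fin 3 → Eˣ} {al s : E} {a b c : kˣ}

/-- The neighbours of the first standard point. -/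
theorem good_adj0 (H : Hyp ρ σ lam g al s a b c) {B : Submodule E (AlbL E a b c)}
    (hB : IsPt ρ lam B) (h : ∀ x ∈ B, ∀ y ∈ Pw al (gl : Oct a b c), adj (x + y) = 0)
    {f : k} (hf : f ≠ 0) (hT : Ty σ g f B)
    (hs : ∀ w, SC σ w → (vk w (b : k) < 0 → vk w (c : k) < 0 → 0 < vk w f) ∧
      (0 < vk w (b : k) ∨ 0 < vk w (c : k) → vk w (c : k) < 0 ∨ vk w f < 0)) :
    Good ρ σ lam g al B := by
  obtain ⟨f1, f2, h1, h2, h0, hx⟩ := Sl.slideC H two_ne_zero hB
    (fun x hx r => h x hx _ (yI_mem r))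
  exact good_fr H h1 h2 h0 hB hx hf hT hs

/-- The signs of the parameters after a change of coordinates. -/
theorem trip_signs (H : Hyp ρ σ lam g al s a b c) (hS : Sg σ b c) {b' c' : kˣ}
    {j l : Oct a b c} (ht : Trip a b' c' gi j l) {w : E →+* ℂ} (hw : SC σ w) :
    (vk w (b : k) < 0 ∧ vk w (c : k) < 0 ∧ vk w (b' : k) < 0 ∧ vk w (c' : k) < 0) ∨
      (0 < vk w (b : k) ∧ 0 < vk w (c : k) ∧ (0 < vk w (b' : k) ∨ 0 < vk w (c' : k))) := by
  obtain ⟨τ, hτ, ha⟩ := exists_tau H hw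
  rcases hS w hw with ⟨h1, h2⟩ | ⟨h1, h2⟩
  · left
    have hd : Dfn τ a b' c' := Dfn.trip ⟨ha, by rwa [← hτ], by rwa [← hτ]⟩ ht
    exact ⟨h1, h2, by rw [hτ]; exact hd.2.1, by rw [hτ]; exact hd.2.2⟩
  · right
    refine ⟨h1, h2, ?_⟩
    by_contra hn
    push Not at hn
    have hb : vk w (b' : k) < 0 := lt_of_le_of_ne hn.1 (vk_ne H hw b'.ne_zero)
    have hc : vk w (c' : k) < 0 := lt_of_le_of_ne hn.2 (vk_ne H hw c'.ne_zero)
    have hd : Dfn τ a b c := Dfn.of_trip ht ⟨ha, by rwa [← hτ], by rwa [← hτ]⟩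
    have h3 := hd.2.1
    rw [← hτ] at h3
    exact absurd h3 (not_lt.2 h1.le)

/-- The neighbours of a standard point. -/
theorem good_adj1 (H : Hyp ρ σ lam g al s a b c) (hS : Sg σ b c)
    {B : Submodule E (AlbL E a b c)}
    (hB : IsPt ρ lam B) {w0 : Oct a b c} (hw0 : Perp w0)
    (h : ∀ x ∈ B, ∀ y ∈ Pw al w0, adj (x + y) = 0)
    {f f' : k} (hf : f ≠ 0) (hf' : f' ≠ 0) (hT : Ty σ g f B) (hT' : Ty σ g f' (Pw al w0))
    (hs : ∀ w, SC σ w → (vk w (b : k) < 0 → vk w (c : k) < 0 → 0 < vk w f) ∧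
      (0 < vk w (b : k) → 0 < vk w (c : k) → 0 < vk w f' ∨ vk w f < 0)) :
    Good ρ σ lam g al B := by
  obtain ⟨b', c', j, ht⟩ := exists_trip H hw0
  have h3 : (Pw al (gl : Oct a b' c')).map
      (tripA E ht : AlbL E a b' c' →ₗ[E] AlbL E a b c) = Pw al w0 := by
    rw [Pw_trip ht, emb_gl']
  apply good_trip H ht
  refine good_adj0 (Hyp.trip H ht) (isPt_trip ht hB) ?_ hf
    (fun w hw => tyAt_trip ht (hT w hw)) ?_
  · rintro _ ⟨x, hx, rfl⟩ y hy
    have h1 : tripA E ht y ∈ Pw al w0 := by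
      rw [← h3]
      exact ⟨y, hy, rfl⟩
    have h2 := h x hx _ h1
    have h4 : adj ((tripA E ht).symm (x + tripA E ht y)) = 0 := by
      refine adj_map (fun z => ?_) h2
      rw [← tripA_cub ht, LinearEquiv.apply_symm_apply]
    rw [map_add, LinearEquiv.symm_apply_apply] at h4
    exact h4
  · intro w hw
    have h5 : TyAt σ g w f' (Pw al (gl : Oct a b' c')) := by
      have h6 := tyAt_trip ht (hT' w hw)
      rw [← h3, ← Submodule.map_comp] at h6
      have h7 : (((tripA E ht).symm : AlbL E a b c →ₗ[E] AlbL E a b' c') ∘ₗ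
          (tripA E ht : AlbL E a b' c' →ₗ[E] AlbL E a b c)) = LinearMap.id := by
        ext1 x
        exact (tripA E ht).symm_apply_apply x
      rw [h7, Submodule.map_id] at h6
      exact h6
    have H' := Hyp.trip H ht
    have h8 := tyAt_sign H' hw (neg_ne_zero.2 c'.ne_zero) hf' (isPt_std H').dim
      (tyAt_Pw H' hw) h5
    rw [vk_mul H hw, vk_neg] at h8
    obtain ⟨hs1, hs2⟩ := hs w hw
    rcases trip_signs H hS ht hw with ⟨k1, k2, k3, k4⟩ | ⟨k1, k2, k3⟩
    · refine ⟨fun _ _ => hs1 k1 k2, fun h9 => ?_⟩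
      left
      exact k4
    · refine ⟨fun h9 h10 => ?_, fun _ => ?_⟩
      · rcases k3 with k3 | k3
        · exact absurd h9 (not_lt.2 k3.le)
        · exact absurd h10 (not_lt.2 k3.le)
      · rcases hs2 k1 k2 with h9 | h9
        · left
          by_contra h10
          have h11 : 0 ≤ vk w (c' : k) := not_lt.1 h10
          have h12 : -vk w (c' : k) * vk w f' ≤ 0 :=
            mul_nonpos_of_nonpos_of_nonneg (neg_nonpos.2 h11) h9.le
          exact absurd h8 (not_lt.2 h12)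
        · right
          exact h9

/-- The neighbours of a good point. -/
theorem good_adj (H : Hyp ρ σ lam g al s a b c) (hS : Sg σ b c)
    {B A : Submodule E (AlbL E a b c)}
    (hB : IsPt ρ lam B) (hA : Good ρ σ lam g al A)
    (h : ∀ x ∈ B, ∀ y ∈ A, adj (x + y) = 0)
    {f f' : k} (hf : f ≠ 0) (hf' : f' ≠ 0) (hT : Ty σ g f B) (hT' : Ty σ g f' A)
    (hs : ∀ w, SC σ w → (vk w (b : k) < 0 → vk w (c : k) < 0 → 0 < vk w f) ∧
      (0 < vk w (b : k) → 0 < vk w (c : k) → 0 < vk w f' ∨ vk w f < 0)) :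
    Good ρ σ lam g al B := by
  obtain ⟨n, hn, w, hw, h1⟩ := hA
  apply good_of_map hn
  refine good_adj1 H hS (isPt_map (res_le hn) hB) hw ?_ hf hf'
    (fun v hv => tyAt_map (hT v hv) (res_le hn))
    (fun v hv => by rw [← h1]; exact tyAt_map (hT' v hv) (res_le hn)) hs
  rintro _ ⟨x, hx, rfl⟩ y hy
  rw [← h1] at hy
  obtain ⟨y, hy, rfl⟩ := hy
  change adj (n x + n y) = 0
  rw [← map_add]
  exact adj_map (res_le hn).1 (h x hx y hy)

/-- The point adjacent to `P` and to the point opposite to `U`, with the sign argument. -/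
theorem exists_mid (H : Hyp ρ σ lam g al s a b c) (hS : Sg σ b c)
    {P U : Submodule E (AlbL E a b c)} (hP : IsPt ρ lam P) (hU : IsPt ρ lam U)
    (hUl : U ≤ Iln c (E6O.em al)) (horth : ∀ y ∈ U, ∀ x ∈ P, her σ g y x = 0)
    (hTU : Ty σ g ((b : k) * c) U) :
    ∃ A : Submodule E (AlbL E a b c), IsPt ρ lam A ∧
      (∀ x ∈ P, ∀ y ∈ A, adj (x + y) = 0) ∧
      (∀ x ∈ opp σ g al U, ∀ y ∈ A, adj (x + y) = 0) ∧
      (Ty σ g (-(b : k)) A → Good ρ σ lam g al A) := by
  have hb0 : (b : k) ≠ 0 := b.ne_zero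
  have hc0 : (c : k) ≠ 0 := c.ne_zero
  have hbc0 : (b : k) * c ≠ 0 := mul_ne_zero hb0 hc0
  obtain ⟨n, hn, w0, hw0, h1, h2⟩ := E6X.Tm H hbc0 (by
    intro w hw hb
    have hc : vk w (c : k) ≠ 0 := vk_ne H hw hc0
    rw [vk_neg, vk_mul H hw, vk_mul H hw]
    have : 0 < vk w (c : k) ^ 2 := by positivity
    nlinarith) hU hUl hTU
  obtain ⟨b', c', j, ht⟩ := exists_trip H hw0
  have H' := Hyp.trip H ht
  have hGO := res_le hn
  -- the transported point
  set P2 := (P.map (n : AlbL E a b c →ₗ[E] AlbL E a b c)).map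
    ((tripA E ht).symm : AlbL E a b c →ₗ[E] AlbL E a b' c') with hP2
  have hP2' : IsPt ρ lam P2 := isPt_trip ht (isPt_map hGO hP)
  have hcb : ∀ x ∈ P2, cb al x.x1.snd = 0 ∧ cb al x.x2.snd = 0 ∧ cb al x.x3.snd = 0 := by
    rintro _ ⟨_, ⟨x, hx, rfl⟩, rfl⟩
    apply cb_of_her H'
    intro y hy
    have h4 : tripA E ht y ∈ Pm al w0 := by
      have h3 : tripA E ht y ∈ (Pm al (gl : Oct a b' c')).map
          (tripA E ht : AlbL E a b' c' →ₗ[E] AlbL E a b c) := ⟨y, hy, rfl⟩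
      rwa [Pm_trip ht, emb_gl'] at h3
    rw [← h1] at h4
    obtain ⟨z, hz, hzy⟩ := h4
    change her σ g y ((tripA E ht).symm (n x)) = 0
    rw [← tripA_her ht, LinearEquiv.apply_symm_apply, ← hzy]
    change her σ g (n z) (n x) = 0
    rw [hGO.2.2]
    exact horth z hz x hx
  obtain ⟨f1, f2, e1, e2, e0, A2, hA2, hAy, hadj⟩ := Sl.slideB H' two_ne_zero hP2' hcb
  -- back
  set A1 := A2.map (tripA E ht : AlbL E a b' c' →ₗ[E] AlbL E a b c) with hA1
  have hA1p : IsPt ρ lam A1 := isPt_map' (tripA_cub ht) (tripA_ph ht) hA2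
  set A := A1.map ((n⁻¹ : AlbL E a b c ≃ₗ[E] AlbL E a b c) : AlbL E a b c →ₗ[E] AlbL E a b c)
    with hA
  have hinv : n⁻¹ ∈ GO ρ σ lam g a b c := inv_mem hGO
  have hAp : IsPt ρ lam A := isPt_map hinv hA1p
  have hmem : ∀ y ∈ A, ∃ z ∈ A2, y = n⁻¹ (tripA E ht z) := by
    rintro _ ⟨_, ⟨z, hz, rfl⟩, rfl⟩
    exact ⟨z, hz, rfl⟩
  have hback : ∀ (x : AlbL E a b c) (z : AlbL E a b' c'),
      adj ((tripA E ht).symm (n x) + z) = 0 → adj (x + n⁻¹ (tripA E ht z)) = 0 := by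
    intro x z h3
    have h4 : adj (tripA E ht ((tripA E ht).symm (n x) + z)) = 0 := adj_map (tripA_cub ht) h3
    rw [map_add, LinearEquiv.apply_symm_apply] at h4
    have h5 : adj (n⁻¹ (n x + tripA E ht z)) = 0 := adj_map hinv.1 h4
    rw [map_add] at h5
    have h6 : n⁻¹ (n x) = x := by
      rw [← LinearEquiv.mul_apply, inv_mul_cancel]
      rfl
    rwa [h6] at h5
  refine ⟨A, hAp, ?_, ?_, ?_⟩
  · intro x hx y hy
    obtain ⟨z, hz, rfl⟩ := hmem y hy
    apply hback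
    exact hadj z hz _ ⟨_, ⟨x, hx, rfl⟩, rfl⟩
  · intro x hx y hy
    obtain ⟨z, hz, rfl⟩ := hmem y hy
    apply hback
    have h3 : (tripA E ht).symm (n x) ∈ Pw al (gl : Oct a b' c') := by
      have h4 : n x ∈ Pw al w0 := by
        rw [← h2]
        exact ⟨x, hx, rfl⟩
      have h5 : (Pw al (gl : Oct a b' c')).map
          (tripA E ht : AlbL E a b' c' →ₗ[E] AlbL E a b c) = Pw al w0 := by
        rw [Pw_trip ht, emb_gl']
      rw [← h5] at h4
      obtain ⟨y, hy, h6⟩ := h4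
      rw [← h6]
      change (tripA E ht).symm (tripA E ht y) ∈ _
      rw [LinearEquiv.symm_apply_apply]
      exact hy
    obtain ⟨r, hr⟩ := eq_yI_of_mem h3
    obtain ⟨u, t, hu⟩ := hAy z hz
    rw [hr, hu, add_comm, yI_add]
    exact Sl.adj_yI two_ne_zero H'.al2 _ _ _ _
  · intro hTA
    -- the types
    have hTA1 : Ty σ g (-(b : k)) A1 := by
      intro w hw
      have h3 := tyAt_map (hTA w hw) hGO
      rw [hA, map_inv'] at h3
      exact h3
    have hTA2 : Ty σ g (-(b : k)) A2 := by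
      intro w hw
      have h3 := tyAt_trip ht (hTA1 w hw)
      rw [hA1, ← Submodule.map_comp] at h3
      have h7 : (((tripA E ht).symm : AlbL E a b c →ₗ[E] AlbL E a b' c') ∘ₗ
          (tripA E ht : AlbL E a b' c' →ₗ[E] AlbL E a b c)) = LinearMap.id := by
        ext1 x
        exact (tripA E ht).symm_apply_apply x
      rw [h7, Submodule.map_id] at h3
      exact h3
    have hPm : (U.map (n : AlbL E a b c →ₗ[E] AlbL E a b c)).map
        ((tripA E ht).symm : AlbL E a b c →ₗ[E] AlbL E a b' c') = Pm al (gl : Oct a b' c') := by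
      have h5 : (Pm al (gl : Oct a b' c')).map
          (tripA E ht : AlbL E a b' c' →ₗ[E] AlbL E a b c) = Pm al w0 := by
        rw [Pm_trip ht, emb_gl']
      rw [h1, ← h5, ← Submodule.map_comp]
      have h7 : (((tripA E ht).symm : AlbL E a b c →ₗ[E] AlbL E a b' c') ∘ₗ
          (tripA E ht : AlbL E a b' c' →ₗ[E] AlbL E a b c)) = LinearMap.id := by
        ext1 x
        exact (tripA E ht).symm_apply_apply x
      rw [h7, Submodule.map_id]
    have hG1 : Good ρ σ lam g al A1 := by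
      apply good_trip H ht
      have h3 : A1.map ((tripA E ht).symm : AlbL E a b c →ₗ[E] AlbL E a b' c') = A2 := by
        rw [hA1, ← Submodule.map_comp]
        have h7 : (((tripA E ht).symm : AlbL E a b c →ₗ[E] AlbL E a b' c') ∘ₗ
            (tripA E ht : AlbL E a b' c' →ₗ[E] AlbL E a b c)) = LinearMap.id := by
          ext1 x
          exact (tripA E ht).symm_apply_apply x
        rw [h7, Submodule.map_id]
      rw [h3]
      refine good_fr H' e1 e2 e0 hA2 hAy (neg_ne_zero.2 hb0) hTA2 ?_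
      intro w hw
      have h5 : TyAt σ g w ((b : k) * c) (Pm al (gl : Oct a b' c')) := by
        rw [← hPm]
        exact tyAt_trip ht (tyAt_map (hTU w hw) hGO)
      have h6 : Module.finrank E (Pm al (gl : Oct a b' c')) = 3 := by
        rw [← hPm]
        exact (isPt_trip ht (isPt_map hGO hU)).dim
      have h8 := tyAt_sign H' hw (neg_ne_zero.2 c'.ne_zero) hbc0 h6
        (tyAt_Pm H' hw) h5
      rw [vk_mul H hw, vk_mul H hw, vk_neg] at h8
      rw [vk_neg]
      rcases trip_signs H hS ht hw with ⟨k1, k2, k3, k4⟩ | ⟨k1, k2, k3⟩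
      · exact ⟨fun _ _ => by linarith, fun _ => Or.inl k4⟩
      · have h9 : vk w (c' : k) < 0 := by
          by_contra h10
          have h11 : 0 ≤ vk w (c' : k) := not_lt.1 h10
          have h12 : -vk w (c' : k) * (vk w (b : k) * vk w (c : k)) ≤ 0 :=
            mul_nonpos_of_nonpos_of_nonneg (neg_nonpos.2 h11) (mul_pos k1 k2).le
          exact absurd h8 (not_lt.2 h12)
        refine ⟨fun h10 h11 => ?_, fun _ => Or.inl h9⟩
        rcases k3 with k3 | k3
        · exact absurd h10 (not_lt.2 k3.le)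
        · exact absurd h11 (not_lt.2 k3.le)
    obtain ⟨m, hm, v, hv, h9⟩ := hG1
    exact ⟨m * n, mul_mem hm hn, v, hv, by rw [map_mul', hA, map_inv', h9]⟩

/-- If the types are known, the point is good. -/
theorem good_of_types (H : Hyp ρ σ lam g al s a b c) (hS : Sg σ b c)
    {P : Submodule E (AlbL E a b c)} (hP : IsPt ρ lam P) (hTP : Ty σ g (-(c : k)) P)
    (hU : ∀ U : Submodule E (AlbL E a b c), IsPt ρ lam U → U ≤ Iln c (E6O.em al) →
      (∀ y ∈ U, ∀ x ∈ P, her σ g y x = 0) → Ty σ g ((b : k) * c) U ∧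
        ∀ A : Submodule E (AlbL E a b c), IsPt ρ lam A → (∀ x ∈ P, ∀ y ∈ A, adj (x + y) = 0) →
          (∀ x ∈ opp σ g al U, ∀ y ∈ A, adj (x + y) = 0) → Ty σ g (-(b : k)) A) :
    Good ρ σ lam g al P := by
  obtain ⟨U, hUp, hUl, horth⟩ := exists_orth H hP
  obtain ⟨hTU, hA⟩ := hU U hUp hUl horth
  obtain ⟨A, hAp, h1, h2, h3⟩ := exists_mid H hS hP hUp hUl horth hTU
  have hTA := hA A hAp h1 h2
  refine good_adj H hS hP (h3 hTA) h1 (neg_ne_zero.2 c.ne_zero) (neg_ne_zero.2 b.ne_zero) hTP hTA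
    ?_
  intro w hw
  rw [vk_neg, vk_neg]
  exact ⟨fun _ h4 => by linarith, fun _ h4 => Or.inr (by linarith)⟩

end Vale.Agent.P011.E6X.H493
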